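import Crest.Agent.R288.Pure

/-!
# R288: the algorithm as a recursive scheme
-/

set_option autoImplicit false

namespace Crest.Agent.R288

open Crest.Agent.Lib.PT

/-! ### Calls -/

/-- a fair coin -/
def cCoin : Call := (0, .nil)
/-- read the input -/
def cRead (a : ℕ) : Call := (1, enc a)
/-- uniform number with `e` bits -/
def cRnd (e : ℕ) : Call := (2, enc (Un.mk e))
/-- average of `2^e` copies -/
def cAvg (k : Call) (e : ℕ) : Call := (3, enc (k, e))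
/-- list of results -/
def cVec (ks : List Call) : Call := (4, enc ks)
/-- sum of results -/
def cSum (ks : List Call) : Call := (5, enc ks)
/-- banded dynamic programme: transform a row -/
def cRow (e i : ℕ) (α : ℤ) (κ : Un) (row : List ℕ) : Call := (6, enc (Un.mk e, i, α, κ, row))
/-- `min F (κ + 1)` -/
def cSmall (e i : ℕ) (α γ : ℤ) (κ : ℕ) : Call := (7, enc (Un.mk e, i, α, γ, Un.mk κ))
/-- the oracle -/
def cOrc (e i : ℕ) (α γ : ℤ) : Call := (8, enc (Un.mk e, i, α, γ))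
/-- amplified gap test -/
def cGap (e i : ℕ) (α γ : ℤ) (κ : ℕ) : Call := (9, enc (Un.mk e, i, α, γ, κ))
/-- raw gap test -/
def cGRaw (e i : ℕ) (α : ℤ) (κ : ℕ) : Call := (10, enc (Un.mk e, i, α, κ))
/-- one draw of a raw gap test -/
def cGDraw (e i : ℕ) (α : ℤ) (κ eb l : ℕ) : Call := (11, enc (Un.mk e, i, α, κ, eb, l))
/-- value of a state at the top of a block -/
def cTop (r i : ℕ) (s : ℤ × ℤ) (c : Option Ctx) (t : ℕ) : Call := (12, enc (Un.mk r, i, s, c, t))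
/-- the same when the state is neither cheap nor a leaf -/
def cTop' (r i : ℕ) (s : ℤ × ℤ) (c : Option Ctx) (t : ℕ) : Call := (13, enc (Un.mk r, i, s, c, t))
/-- dynamic programme over past values -/
def cGVal (r i : ℕ) (s : ℤ × ℤ) (σ t : ℕ) : Call := (14, enc (Un.mk r, i, s, σ, t))
/-- the plan -/
def cPlan (r i : ℕ) (s : ℤ × ℤ) (σ φ : ℕ) : Call := (15, enc (Un.mk r, i, s, σ, φ))
/-- small mode without context -/
def cSVal (r i : ℕ) (s : ℤ × ℤ) (σ t : ℕ) : Call := (16, enc (Un.mk r, i, s, σ, t))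
/-- node of the small mode -/
def cSN (r i : ℕ) (pl : Plan) (hb p : ℕ) (s : ℤ × ℤ) (k0 q t : ℕ) : Call :=
  (17, enc (Un.mk r, i, pl, hb, p, s, k0, q, t))
/-- past values in a context -/
def cPast (r i : ℕ) (c : Ctx) (t : ℕ) : Call := (18, enc (Un.mk r, i, c, t))
/-- time-independent data of a context -/
def cFix (r i : ℕ) (c : Ctx) (φ : ℕ) : Call := (19, enc (Un.mk r, i, c, φ))
/-- common data -/
def cCom (r i : ℕ) (c : Ctx) (t : ℕ) : Call := (20, enc (Un.mk r, i, c, t))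
/-- dynamic hint -/
def cHint (r i : ℕ) (c : Ctx) (σ : ℕ) (pls : List (Option Plan)) (t : ℕ) : Call :=
  (21, enc (Un.mk r, i, c, σ, pls, t))
/-- one draw of a hint -/
def cDraw (r i : ℕ) (c : Ctx) (σ lv t : ℕ) : Call := (22, enc (Un.mk r, i, c, σ, lv, t))

/-- table of accurate estimates of the values of the children at time `t` -/
def cTab (P : Par) (r i : ℕ) (Zs : List ℤ) (t : ℕ) : Call :=
  cVec ((List.range P.b).map fun j => cVec (Zs.map fun z1 => cVec (Zs.map fun z2 =>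
    cAvg (cTop (r - 1) (i * P.b + j) (z1, z2) none t) P.kP)))

/-- root of the small mode -/
def cSRoot (P : Par) (r i : ℕ) (pl : Plan) (t : ℕ) : Call :=
  cSN r i pl P.L 0 (pz pl 0, pz pl P.b) 0 P.mb t

/-- the path through the centres -/
def cCent (P : Par) (r i : ℕ) (pl : Plan) (t : ℕ) : Call :=
  cSum ((List.range P.b).map fun j =>
    cTop (r - 1) (i * P.b + j) ((pc pl j).1, (pc pl j).2.1) (some (pc pl j)) t)

/-- Entry `n` of a list of results, decoded. -/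
def rd {β : Type} [Enc β] [Dec β] (r : List V) (n : ℕ) : β := dec (r.getD n .nil)

/-- A list of results, decoded. -/
def rds {β : Type} [Enc β] [Dec β] (r : List V) : List β := r.map dec

/-! ### Stages -/

/-- arguments -/
abbrev ARow := Un × ℕ × ℤ × Un × List ℕ
/-- arguments -/
abbrev ASmall := Un × ℕ × ℤ × ℤ × Un
/-- arguments -/
abbrev AOrc := Un × ℕ × ℤ × ℤ
/-- arguments -/
abbrev AGap := Un × ℕ × ℤ × ℤ × ℕ
/-- arguments -/
abbrev AGRaw := Un × ℕ × ℤ × ℕ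
/-- arguments -/
abbrev AGDraw := Un × ℕ × ℤ × ℕ × ℕ × ℕ
/-- arguments -/
abbrev ATop := Un × ℕ × (ℤ × ℤ) × Option Ctx × ℕ
/-- arguments -/
abbrev AScl := Un × ℕ × (ℤ × ℤ) × ℕ × ℕ
/-- arguments -/
abbrev ASN := Un × ℕ × Plan × ℕ × ℕ × (ℤ × ℤ) × ℕ × ℕ × ℕ
/-- arguments -/
abbrev ACtx := Un × ℕ × Ctx × ℕ
/-- arguments -/
abbrev AHint := Un × ℕ × Ctx × ℕ × List (Option Plan) × ℕ
/-- arguments -/
abbrev ADraw := Un × ℕ × Ctx × ℕ × ℕ × ℕ

variable (P : Par)

/-- first stage -/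
def rowS1 (a : ARow) : List Call :=
  if a.1.n = 0 then cRead (2 + a.2.1) :: (List.range (2 * a.2.2.2.1.n + 1)).map fun k =>
    cRead (2 + P.1 + (ypos a.2.1 a.2.2.1 a.2.2.2.1 k).toNat)
  else [cRow (a.1.n - 1) (2 * a.2.1) a.2.2.1 a.2.2.2.1 a.2.2.2.2]
/-- second stage -/
def rowS2 (a : ARow) (r1 : List V) : List Call :=
  if a.1.n = 0 then [] else [cRow (a.1.n - 1) (2 * a.2.1 + 1) a.2.2.1 a.2.2.2.1 (rd r1 0)]
/-- result -/
def rowOut (a : ARow) (r1 r2 : List V) : V :=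
  if a.1.n = 0 then enc (rowLeaf a.2.2.2.1 (decide (P.1 ≤ a.2.1))
    (matchL P a.2.1 a.2.2.1 a.2.2.2.1 (rds r1)) a.2.2.2.2)
  else r2.getD 0 .nil

/-- first stage -/
def smallS1 (a : ASmall) : List Call :=
  if (a.2.2.2.1 - a.2.2.1).natAbs ≤ a.2.2.2.2.n then
    [cRow a.1.n a.2.1 a.2.2.1 a.2.2.2.2 (row0 a.2.2.2.2)] else []
/-- result -/
def smallOut (a : ASmall) (r1 : List V) : V :=
  enc (if (a.2.2.2.1 - a.2.2.1).natAbs ≤ a.2.2.2.2.n then min (a.2.2.2.2.n + 1)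
    ((rd r1 0 : List ℕ).getD (a.2.2.2.1 - a.2.2.1 + a.2.2.2.2.n).toNat (a.2.2.2.2.n + 1))
  else a.2.2.2.2.n + 1)

/-- first stage -/
def orcS1 (a : AOrc) : List Call :=
  if 2 ^ a.1.n ≤ (a.2.2.2 - a.2.2.1).natAbs then [] else
    (List.range (a.1.n + 2)).map fun k => cGap a.1.n a.2.1 a.2.2.1 a.2.2.2 (2 ^ min k (a.1.n + 2))
/-- result -/
def orcOut (a : AOrc) (r1 : List V) : V :=
  enc (if 2 ^ a.1.n ≤ (a.2.2.2 - a.2.2.1).natAbs then 2 ^ a.1.n + (a.2.2.2 - a.2.2.1).natAbs else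
    min (2 ^ a.1.n + (a.2.2.2 - a.2.2.1).natAbs)
      (P.p2 (P.kR - 1) * 2 ^ (rds r1 : List Bool).findIdx id))

/-- first stage -/
def gapS1 (a : AGap) : List Call :=
  if a.2.2.2.2 < (a.2.2.2.1 - a.2.2.1).natAbs then []
  else if a.2.2.2.2 ≤ P.F1 then [cSmall a.1.n a.2.1 a.2.2.1 a.2.2.2.1 (min a.2.2.2.2 P.F1)]
  else if a.1.n ≤ P.kb then []
  else List.replicate (2 * (4 * P.hh)) (cGRaw a.1.n a.2.1 a.2.2.1 a.2.2.2.2)
/-- result -/
def gapOut (a : AGap) (r1 : List V) : V :=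
  enc (if a.2.2.2.2 < (a.2.2.2.1 - a.2.2.1).natAbs then false
  else if a.2.2.2.2 ≤ P.F1 then decide ((rd r1 0 : ℕ) ≤ a.2.2.2.2)
  else if a.1.n ≤ P.kb then true
  else decide (4 * P.hh < (rds r1 : List Bool).countP id))

/-- first stage -/
def grawS1 (a : AGRaw) : List Call :=
  (gdraws P).map fun q => cGDraw a.1.n a.2.1 a.2.2.1 a.2.2.2 q.1 q.2
/-- result -/
def grawOut (a : AGRaw) (r1 : List V) : V :=
  enc (graw P a.2.2.2 ((rds r1 : List Bool).countP id))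

/-- second stage -/
def gdrawS2 (a : AGDraw) (r1 : List V) : List Call :=
  (gstates P a.2.2.1 a.2.2.2.1 a.2.2.2.2.1).map fun s =>
    cGap (a.1.n - P.kb) (a.2.1 * P.p2 P.kb + rd r1 0) s.1 s.2
      (gg P a.2.2.2.1 a.2.2.2.2.1 * (P.p2 P.kγ + a.2.2.2.2.2 + 2))
/-- result: no test succeeded -/
def gdrawOut (r2 : List V) : V := enc (!(rds r2 : List Bool).any id)

/-- first stage -/
def topS1 (a : ATop) : List Call := [cSmall (a.1.n * P.L) a.2.1 a.2.2.1.1 a.2.2.1.2 P.F0]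
/-- second stage -/
def topS2 (a : ATop) (r1 : List V) : List Call :=
  if (rd r1 0 : ℕ) ≤ P.F0 ∨ a.1.n = 0 ∨ P.F0 < radc a.2.2.2.1 then []
  else [cTop' a.1.n a.2.1 a.2.2.1 a.2.2.2.1 a.2.2.2.2]
/-- result -/
def topOut (a : ATop) (r1 r2 : List V) : V :=
  if (rd r1 0 : ℕ) ≤ P.F0 then r1.getD 0 .nil
  else if a.1.n = 0 ∨ P.F0 < radc a.2.2.2.1 then
    enc (capc P a.2.2.2.1 ((a.2.2.1.2 - a.2.2.1.1).natAbs + 1))
  else r2.getD 0 .nil

/-- first stage -/
def top'S1 (a : ATop) : List Call :=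
  a.2.2.2.1.elim
    (if a.2.2.2.2 = 0 then [cOrc (a.1.n * P.L) a.2.1 a.2.2.1.1 a.2.2.1.2]
      else [cAvg (cTop a.1.n a.2.1 a.2.2.1 none (a.2.2.2.2 - 1)) P.kP])
    fun c => [cCom a.1.n a.2.1 c a.2.2.2.2]
/-- second stage -/
def top'S2 (a : ATop) (r1 : List V) : List Call :=
  a.2.2.2.1.elim
    (if a.2.2.2.2 = 0 then [] else
      ((List.range P.nS).map fun j => cGVal a.1.n a.2.1 a.2.2.1 (sclS P (rd r1 0) j) a.2.2.2.2) ++
        if P.T0 < a.2.2.2.2 then (List.range P.nS).map fun j =>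
          cSVal a.1.n a.2.1 a.2.2.1 (sclS P (rd r1 0) j) a.2.2.2.2 else [])
    fun c => (List.range P.nC).map fun j => (own c a.2.2.1 (rd r1 0) j).elim (cSum [])
      fun pl => cAvg (cSRoot P a.1.n a.2.1 pl a.2.2.2.2) P.kK
/-- result -/
def top'Out (a : ATop) (r1 r2 : List V) : V :=
  a.2.2.2.1.elim
    (if a.2.2.2.2 = 0 then r1.getD 0 .nil else enc (omin (rd r1 0) (rds r2)))
    fun c => enc (ctxOut P c a.2.2.1 (rd r1 0) (rds r2))

/-- first stage -/
def gvalS1 (a : AScl) : List Call :=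
  [cTab P a.1.n a.2.1 (zgrid P a.2.2.1.1 a.2.2.2.1) (a.2.2.2.2 - 1)]
/-- result -/
def gvalOut (a : AScl) (r1 : List V) : V :=
  enc (some (gN (zgrid P a.2.2.1.1 a.2.2.2.1) (rd r1 0) (List.range P.b) a.2.2.1.1 a.2.2.1.2))

/-- first stage -/
def planS1 (a : AScl) : List Call :=
  (List.range P.T0).map fun k =>
    cTab P a.1.n a.2.1 (zgrid P a.2.2.1.1 a.2.2.2.1) (wnd P a.2.2.2.2 k)
/-- result -/
def planOut (a : AScl) (r1 : List V) : V :=
  enc (planOf P a.2.2.1.1 a.2.2.1.2 a.2.2.2.1 (rds r1))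

/-- first stage -/
def svalS1 (a : AScl) : List Call := [cPlan a.1.n a.2.1 a.2.2.1 a.2.2.2.1 (phs P a.2.2.2.2)]
/-- second stage -/
def svalS2 (a : AScl) (r1 : List V) : List Call :=
  (rd r1 0 : Option Plan).elim [] fun pl => [cAvg (cSRoot P a.1.n a.2.1 pl a.2.2.2.2) P.kK]
/-- result -/
def svalOut (a : AScl) (r1 r2 : List V) : V :=
  enc ((rd r1 0 : Option Plan).map fun pl => (rd r2 0 : ℕ) + junc P pl a.2.2.1.1 a.2.2.1.2)

/-- an option of a choice node: `false` first, `true` second -/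
def snOpt (a : ASN) (o : Bool) (t : ℕ) : Call :=
  cSN a.1.n a.2.1 a.2.2.1 a.2.2.2.1 a.2.2.2.2.1 a.2.2.2.2.2.1
    (if o = true then a.2.2.2.2.2.2.1 + P.p2 (a.2.2.2.2.2.2.2.1 - 1) else a.2.2.2.2.2.2.1)
    (a.2.2.2.2.2.2.2.1 - 1) t
/-- first stage -/
def snS1 (a : ASN) : List Call :=
  if a.2.2.2.1 = 0 then
    [cTop (a.1.n - 1) (a.2.1 * P.b + a.2.2.2.2.1) a.2.2.2.2.2.1 (some (pc a.2.2.1 a.2.2.2.2.1))
      a.2.2.2.2.2.2.2.2]
  else if a.2.2.2.2.2.2.2.1 = 0 then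
    [cSN a.1.n a.2.1 a.2.2.1 (a.2.2.2.1 - 1) (2 * a.2.2.2.2.1)
        (a.2.2.2.2.2.1.1, optz P a.2.2.1 a.2.2.2.1 a.2.2.2.2.1 a.2.2.2.2.2.2.1) 0 P.mb
        a.2.2.2.2.2.2.2.2,
      cSN a.1.n a.2.1 a.2.2.1 (a.2.2.2.1 - 1) (2 * a.2.2.2.2.1 + 1)
        (optz P a.2.2.1 a.2.2.2.1 a.2.2.2.2.1 a.2.2.2.2.2.2.1, a.2.2.2.2.2.1.2) 0 P.mb
        a.2.2.2.2.2.2.2.2]
  else
    [cVec ((List.range (nIn P a.2.2.2.2.2.2.2.2)).map fun k =>
        cAvg (snOpt P a false (rnk P a.2.2.2.2.2.2.2.2 k)) P.kP),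
      cVec ((List.range (nIn P a.2.2.2.2.2.2.2.2)).map fun k =>
        cAvg (snOpt P a true (rnk P a.2.2.2.2.2.2.2.2 k)) P.kP),
      cRnd (qbits P (omg P a.2.2.1 a.2.2.2.1 a.2.2.2.2.1))]
/-- second stage -/
def snS2 (a : ASN) (r1 : List V) : List Call :=
  if a.2.2.2.1 = 0 ∨ a.2.2.2.2.2.2.2.1 = 0 then [] else
    [snOpt P a (choose2 P (omg P a.2.2.1 a.2.2.2.1 a.2.2.2.2.1) (rd r1 0) (rd r1 1) (rd r1 2))
      a.2.2.2.2.2.2.2.2]
/-- result -/
def snOut (a : ASN) (r1 r2 : List V) : V :=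
  if a.2.2.2.1 = 0 then r1.getD 0 .nil
  else if a.2.2.2.2.2.2.2.1 = 0 then enc ((rd r1 0 : ℕ) + rd r1 1)
  else r2.getD 0 .nil

/-- first stage -/
def pastS1 (a : ACtx) : List Call :=
  [cVec ((om a.2.2.1).map fun s => cAvg (cTop a.1.n a.2.1 s none (a.2.2.2 - 1)) P.kP),
    cVec (if nIn P a.2.2.2 = 0 then [] else (om a.2.2.1).map fun s =>
      cAvg (cTop a.1.n a.2.1 s (some a.2.2.1) (a.2.2.2 - 1)) P.kP)]
/-- result -/
def pastOut' (r1 : List V) : V := enc (pastOut (rd r1 0) (rd r1 1))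

/-- first stage -/
def fixS1 (a : ACtx) : List Call :=
  [cVec ((List.range P.T0).map fun k => cVec ((om a.2.2.1).map fun s =>
      cAvg (cTop a.1.n a.2.1 s none (wnd P a.2.2.2 k)) P.kP)),
    cVec ((List.range P.nC).map fun j => cVec ((om a.2.2.1).map fun s =>
      cPlan a.1.n a.2.1 s (sclC P a.2.2.1 j) a.2.2.2))]
/-- result -/
def fixOut' (a : ACtx) (r1 : List V) : V := enc (fixOut P a.2.2.1 (rd r1 0) (rd r1 1))

/-- first stage -/
def comS1 (a : ACtx) : List Call :=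
  [cPast a.1.n a.2.1 a.2.2.1 a.2.2.2, cFix a.1.n a.2.1 a.2.2.1 (phs P a.2.2.2)]
/-- second stage -/
def comS2 (a : ACtx) (r1 : List V) : List Call :=
  (List.range P.nC).map fun j => if j < P.kg then cSum [] else
    cHint a.1.n a.2.1 a.2.2.1 (sclC P a.2.2.1 j)
      ((rd r1 1 : ℕ × List (List (Option Plan))).2.getD j []) a.2.2.2
/-- result -/
def comOut (r1 r2 : List V) : V :=
  enc (((rd r1 0 : List ℕ), (rd r1 1 : ℕ × List (List (Option Plan))).1,
    (rd r1 1 : ℕ × List (List (Option Plan))).2,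
    (List.range P.nC).map fun j => if j < P.kg then
      statH P ((rd r1 1 : ℕ × List (List (Option Plan))).2.getD j []) else rd r2 j) : Com)

/-- first stage -/
def hintS1 (a : AHint) : List Call :=
  (List.range P.nw).flatMap fun lv => List.replicate (P.p2 (P.kK + lv))
    (cDraw a.1.n a.2.1 a.2.2.1 a.2.2.2.1 lv a.2.2.2.2.2)
/-- second stage -/
def hintS2 (a : AHint) (r1 : List V) : List Call :=
  (selP P a.2.2.1 a.2.2.2.1 a.2.2.2.2.1 (rds r1)).elim [] fun pl =>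
    [cAvg (cCent P a.1.n a.2.1 pl a.2.2.2.2.2) P.kK]
/-- result -/
def hintOut (a : AHint) (r1 r2 : List V) : V :=
  enc ((selP P a.2.2.1 a.2.2.2.1 a.2.2.2.2.1 (rds r1)).map fun pl =>
    (((rd r2 0 : ℕ) + cjunc P pl, cends P pl) : Hnt))

/-- second stage -/
def drawS2 (a : ADraw) (r1 : List V) : List Call :=
  (tabKeys P a.2.2.1 a.2.2.2.1 a.2.2.2.2.1).map fun c' =>
    cTop (a.1.n - 1) (a.2.1 * P.b + rd r1 0) (c'.1, c'.2.1) (some c') a.2.2.2.2.2
/-- result -/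
def drawOut (a : ADraw) (r1 r2 : List V) : V :=
  enc ((a.2.2.2.2.1, rd r1 0, rds r2) : Drw)

/-! ### The scheme -/

/-- first stages -/
def algS1 (k : Call) : List Call :=
  if k.1 = 2 then List.replicate (dec k.2 : Un).n cCoin
  else if k.1 = 3 then List.replicate (P.p2 (dec k.2 : Call × ℕ).2) (dec k.2 : Call × ℕ).1
  else if k.1 = 4 then dec k.2
  else if k.1 = 5 then dec k.2
  else if k.1 = 6 then rowS1 P (dec k.2)
  else if k.1 = 7 then smallS1 (dec k.2)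
  else if k.1 = 8 then orcS1 (dec k.2)
  else if k.1 = 9 then gapS1 P (dec k.2)
  else if k.1 = 10 then grawS1 P (dec k.2)
  else if k.1 = 11 then [cRnd P.kb]
  else if k.1 = 12 then topS1 P (dec k.2)
  else if k.1 = 13 then top'S1 P (dec k.2)
  else if k.1 = 14 then gvalS1 P (dec k.2)
  else if k.1 = 15 then planS1 P (dec k.2)
  else if k.1 = 16 then svalS1 P (dec k.2)
  else if k.1 = 17 then snS1 P (dec k.2)
  else if k.1 = 18 then pastS1 P (dec k.2)
  else if k.1 = 19 then fixS1 P (dec k.2)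
  else if k.1 = 20 then comS1 P (dec k.2)
  else if k.1 = 21 then hintS1 P (dec k.2)
  else if k.1 = 22 then [cRnd P.L]
  else []

/-- second stages -/
def algS2 (k : Call) (r1 : List V) : List Call :=
  if k.1 = 6 then rowS2 (dec k.2) r1
  else if k.1 = 11 then gdrawS2 P (dec k.2) r1
  else if k.1 = 12 then topS2 P (dec k.2) r1
  else if k.1 = 13 then top'S2 P (dec k.2) r1
  else if k.1 = 16 then svalS2 P (dec k.2) r1
  else if k.1 = 17 then snS2 P (dec k.2) r1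
  else if k.1 = 20 then comS2 P (dec k.2) r1
  else if k.1 = 21 then hintS2 P (dec k.2) r1
  else if k.1 = 22 then drawS2 P (dec k.2) r1
  else []

/-- results -/
def algOut (k : Call) (r1 r2 : List V) : V :=
  if k.1 = 2 then enc (ofBits (rds r1))
  else if k.1 = 3 then enc ((rds r1 : List ℕ).sum / P.p2 (dec k.2 : Call × ℕ).2)
  else if k.1 = 4 then enc r1
  else if k.1 = 5 then enc (rds r1 : List ℕ).sum
  else if k.1 = 6 then rowOut P (dec k.2) r1 r2
  else if k.1 = 7 then smallOut (dec k.2) r1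
  else if k.1 = 8 then orcOut P (dec k.2) r1
  else if k.1 = 9 then gapOut P (dec k.2) r1
  else if k.1 = 10 then grawOut P (dec k.2) r1
  else if k.1 = 11 then gdrawOut r2
  else if k.1 = 12 then topOut P (dec k.2) r1 r2
  else if k.1 = 13 then top'Out P (dec k.2) r1 r2
  else if k.1 = 14 then gvalOut P (dec k.2) r1
  else if k.1 = 15 then planOut P (dec k.2) r1
  else if k.1 = 16 then svalOut P (dec k.2) r1 r2
  else if k.1 = 17 then snOut (dec k.2) r1 r2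
  else if k.1 = 18 then pastOut' r1
  else if k.1 = 19 then fixOut' P (dec k.2) r1
  else if k.1 = 20 then comOut P r1 r2
  else if k.1 = 21 then hintOut P (dec k.2) r1 r2
  else if k.1 = 22 then drawOut (dec k.2) r1 r2
  else .nil

/-- The algorithm. -/
def alg : Scheme := ⟨algS1, algS2, algOut⟩

/-- The root call. -/
def root : Call := cTop P.H 0 (0, (P.2.1 : ℤ) - P.1) none P.T

end Crest.Agent.R288
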